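import Vale.Agent.P092.QT.H156.Sm

/-!
P092 (helper58, after helper333), project Q for all amplifications: synthesis in a tight frame, and
the conjugation `b ↦ b*` on the space `L²(G; K)` of the columns of the equivariant fields.
-/

set_option linter.all false

open scoped InnerProductSpace Topology ENNReal
open Filter ContinuousLinearMap MeasureTheory
open Vale.Agent.P092.H160 (Cmm mul_ap Bes anOp opOf anOp_apply opOf_dl norm_opOf_le Ell2 dl mk2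
  mk2_apply hasSum_dl norm_sq)

namespace Vale.Agent.P092.QT.H333

section syn

variable {Γ K : Type} [Group Γ] [NormedAddCommGroup K] [InnerProductSpace ℂ K] [CompleteSpace K]
  {ρ : Γ →* (K →L[ℂ] K)} {ω : K}

/-- The frame constant. -/
noncomputable def fc (h : TRep ρ ω) : ℝ := h.frame.choose

theorem fc_pos (h : TRep ρ ω) : 0 < fc h := h.frame.choose_spec.1

theorem fc_ne (h : TRep ρ ω) : ((fc h : ℝ) : ℂ) ≠ 0 := by exact_mod_cast (fc_pos h).ne'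

theorem hasSum_norm_sq (h : TRep ρ ω) (u : K) :
    HasSum (fun g => ‖⟪ρ g ω, u⟫_ℂ‖ ^ 2) (fc h * ‖u‖ ^ 2) := h.frame.choose_spec.2 u

theorem hasSum_inn (h : TRep ρ ω) (u v : K) :
    HasSum (fun g => ⟪u, ρ g ω⟫_ℂ * ⟪ρ g ω, v⟫_ℂ) (fc h * ⟪u, v⟫_ℂ) :=
  polar _ (hasSum_norm_sq h) u v

theorem bes (h : TRep ρ ω) : Bes (Real.sqrt (fc h)) (fun g : Γ => ρ g ω) := by
  intro s v
  rw [Real.sq_sqrt (fc_pos h).le]
  exact sum_le_hasSum s (fun x _ => sq_nonneg _) (hasSum_norm_sq h v)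

/-- Synthesis of a square summable family of coordinates. -/
theorem hasSum_syn (h : TRep ρ ω) {c : Γ → ℂ} (hc : Summable fun g => ‖c g‖ ^ 2) :
    HasSum (fun g => c g • ρ g ω) (∑' g, c g • ρ g ω) ∧
      ‖∑' g, c g • ρ g ω‖ ^ 2 ≤ fc h * ∑' g, ‖c g‖ ^ 2 := by
  have h1 := (hasSum_dl (mk2 c hc)).mapL (opOf (bes h))
  simp only [map_smul, opOf_dl, mk2_apply] at h1
  refine ⟨by rw [h1.tsum_eq]; exact h1, ?_⟩
  rw [h1.tsum_eq]
  have h2 : ‖opOf (bes h) (mk2 c hc)‖ ≤ Real.sqrt (fc h) * ‖mk2 c hc‖ := by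
    refine ((opOf (bes h)).le_opNorm _).trans (mul_le_mul_of_nonneg_right ?_ (norm_nonneg _))
    refine (norm_opOf_le (bes h)).trans_eq (abs_of_nonneg (Real.sqrt_nonneg _))
  have h3 := pow_le_pow_left₀ (norm_nonneg _) h2 2
  rw [mul_pow, Real.sq_sqrt (fc_pos h).le, norm_sq] at h3
  exact h3

/-- Reconstruction. -/
theorem hasSum_rec (h : TRep ρ ω) (u : K) :
    HasSum (fun g => ⟪ρ g ω, u⟫_ℂ • ρ g ω) (((fc h : ℝ) : ℂ) • u) := by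
  have h1 := (hasSum_syn h (c := fun g => ⟪ρ g ω, u⟫_ℂ) (hasSum_norm_sq h u).summable).1
  have h2 : ∑' g, ⟪ρ g ω, u⟫_ℂ • ρ g ω = ((fc h : ℝ) : ℂ) • u := by
    refine ext_inner_left ℂ fun v => ?_
    have h3 := h1.mapL (innerSL ℂ v)
    rw [inner_smul_right]
    have h4 : (fun g => innerSL ℂ v (⟪ρ g ω, u⟫_ℂ • ρ g ω)) =
        fun g => ⟪v, ρ g ω⟫_ℂ * ⟪ρ g ω, u⟫_ℂ := by
      funext g
      change ⟪v, ⟪ρ g ω, u⟫_ℂ • ρ g ω⟫_ℂ = _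
      rw [inner_smul_right, mul_comm]
    rw [h4] at h3
    exact h3.unique (hasSum_inn h v u)
  rwa [h2] at h1

theorem rec_eq (h : TRep ρ ω) (u : K) :
    (((fc h)⁻¹ : ℝ) : ℂ) • ∑' g, ⟪ρ g ω, u⟫_ℂ • ρ g ω = u := by
  rw [(hasSum_rec h u).tsum_eq, smul_smul, ← Complex.ofReal_mul,
    inv_mul_cancel₀ (fc_pos h).ne', Complex.ofReal_one, one_smul]

theorem hasSum_rec' (h : TRep ρ ω) (u : K) :
    HasSum (fun g => ((((fc h)⁻¹ : ℝ) : ℂ) * ⟪ρ g ω, u⟫_ℂ) • ρ g ω) u := by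
  have h1 := (hasSum_rec h u).const_smul (((fc h)⁻¹ : ℝ) : ℂ)
  have h2 : (((fc h)⁻¹ : ℝ) : ℂ) • ((fc h : ℝ) : ℂ) • u = u := by
    rw [smul_smul, ← Complex.ofReal_mul, inv_mul_cancel₀ (fc_pos h).ne', Complex.ofReal_one,
      one_smul]
  rw [h2] at h1
  simp only [smul_smul] at h1
  exact h1

theorem enorm_sq_of (z : K) : ‖z‖ₑ ^ 2 = ENNReal.ofReal (‖z‖ ^ 2) := by
  rw [← ofReal_norm_eq_enorm, ENNReal.ofReal_pow (norm_nonneg _)]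

theorem tsum_enorm_sq (h : TRep ρ ω) (u : K) :
    ∑' g, ‖⟪ρ g ω, u⟫_ℂ‖ₑ ^ 2 = ENNReal.ofReal (fc h) * ‖u‖ₑ ^ 2 := by
  have h1 := hasSum_norm_sq h u
  have e1 : ∀ z : ℂ, ‖z‖ₑ ^ 2 = ENNReal.ofReal (‖z‖ ^ 2) := fun z => by
    rw [← ofReal_norm_eq_enorm, ENNReal.ofReal_pow (norm_nonneg _)]
  simp_rw [e1]
  rw [enorm_sq_of, ← ENNReal.ofReal_mul (fc_pos h).le,
    ← ENNReal.ofReal_tsum_of_nonneg (fun g => by positivity) h1.summable, h1.tsum_eq]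

theorem enorm_syn_le (h : TRep ρ ω) {c : Γ → ℂ} (hc : Summable fun g => ‖c g‖ ^ 2) :
    ‖∑' g, c g • ρ g ω‖ₑ ^ 2 ≤ ENNReal.ofReal (fc h) * ∑' g, ‖c g‖ₑ ^ 2 := by
  have e1 : ∀ z : ℂ, ‖z‖ₑ ^ 2 = ENNReal.ofReal (‖z‖ ^ 2) := fun z => by
    rw [← ofReal_norm_eq_enorm, ENNReal.ofReal_pow (norm_nonneg _)]
  simp_rw [e1]
  rw [enorm_sq_of, ← ENNReal.ofReal_tsum_of_nonneg (fun g => by positivity) hc,
    ← ENNReal.ofReal_mul (fc_pos h).le]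
  exact ENNReal.ofReal_le_ofReal (hasSum_syn h hc).2

theorem summable_of_enorm {c : Γ → ℂ} (hc : ∑' g, ‖c g‖ₑ ^ 2 ≠ ∞) : Summable fun g => ‖c g‖ ^ 2 := by
  have h1 := ENNReal.summable_toReal hc
  refine h1.congr fun g => ?_
  rw [ENNReal.toReal_pow, toReal_enorm]

end syn

section jmap

variable {Γ G K : Type} [Group Γ] [Countable Γ] [Group G] [TopologicalSpace G]
  [IsTopologicalGroup G] [MeasurableSpace G] [BorelSpace G]
  [NormedAddCommGroup K] [InnerProductSpace ℂ K] [CompleteSpace K]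
  {ρ : Γ →* (K →L[ℂ] K)} {ω : K} {ι : Γ →* G} {μ : Measure G} [μ.IsMulLeftInvariant]

/-- The coordinates of `J ξ`. -/
noncomputable def jc (ρ : Γ →* (K →L[ℂ] K)) (ω : K) (ι : Γ →* G) (ξ : G → K) (x : G) (g : Γ) : ℂ :=
  ⟪ξ (ι g⁻¹ * x), ρ g⁻¹ ω⟫_ℂ

/-- The adjoint, on the level of functions. -/
noncomputable def jf (h : TRep ρ ω) (ι : Γ →* G) (ξ : G → K) (x : G) : K :=
  (((fc h)⁻¹ : ℝ) : ℂ) • ∑' g, jc ρ ω ι ξ x g • ρ g ω

theorem aesm_trans {ξ : G → K} (hξ : AEStronglyMeasurable ξ μ) (g : G) :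
    AEStronglyMeasurable (fun x => ξ (g * x)) μ :=
  hξ.comp_measurePreserving (measurePreserving_mul_left μ g)

theorem aesm_jc {ξ : G → K} (hξ : AEStronglyMeasurable ξ μ) (g : Γ) :
    AEStronglyMeasurable (fun x => jc ρ ω ι ξ x g) μ :=
  (aesm_trans hξ _).inner aestronglyMeasurable_const

theorem lintegral_jc (h : TRep ρ ω) {ξ : G → K} (hξ : AEStronglyMeasurable ξ μ) :
    ∫⁻ x, ∑' g, ‖jc ρ ω ι ξ x g‖ₑ ^ 2 ∂μ = ENNReal.ofReal (fc h) * ∫⁻ x, ‖ξ x‖ₑ ^ 2 ∂μ := by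
  rw [lintegral_tsum fun g => ((aesm_jc hξ g).enorm.pow_const 2)]
  have h1 : ∀ g : Γ, ∫⁻ x, ‖jc ρ ω ι ξ x g‖ₑ ^ 2 ∂μ = ∫⁻ x, ‖⟪ρ g⁻¹ ω, ξ x⟫_ℂ‖ₑ ^ 2 ∂μ := by
    intro g
    rw [← lintegral_mul_left_eq_self (μ := μ) (fun x => ‖⟪ρ g⁻¹ ω, ξ x⟫_ℂ‖ₑ ^ 2) (ι g⁻¹)]
    refine lintegral_congr fun x => ?_
    rw [jc, ← inner_conj_symm, RCLike.enorm_conj]
  simp_rw [h1]
  rw [← lintegral_tsum fun g => ((aestronglyMeasurable_const.inner hξ).enorm.pow_const 2),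
    ← lintegral_const_mul' _ _ ENNReal.ofReal_ne_top]
  refine lintegral_congr fun x => ?_
  rw [← tsum_enorm_sq h (ξ x)]
  exact (Equiv.inv Γ).tsum_eq fun g => ‖⟪ρ g ω, ξ x⟫_ℂ‖ₑ ^ 2

theorem ae_summable_jc (h : TRep ρ ω) {ξ : G → K} (hξ : MemLp ξ 2 μ) :
    ∀ᵐ x ∂μ, Summable fun g => ‖jc ρ ω ι ξ x g‖ ^ 2 := by
  have h1 : ∫⁻ x, ∑' g, ‖jc ρ ω ι ξ x g‖ₑ ^ 2 ∂μ ≠ ∞ := by
    rw [lintegral_jc h hξ.1]
    have h2 := hξ.2
    rw [eLpNorm_lt_top_iff_lintegral_rpow_enorm_lt_top (by norm_num) (by norm_num)] at h2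
    refine ENNReal.mul_ne_top ENNReal.ofReal_ne_top ?_
    simpa using h2.ne
  have h2 := ae_lt_top' (AEMeasurable.ennreal_tsum fun g => ((aesm_jc hξ.1 g).enorm.pow_const 2)) h1
  filter_upwards [h2] with x hx
  exact summable_of_enorm hx.ne

theorem aesm_jf (h : TRep ρ ω) {ξ : G → K} (hξ : MemLp ξ 2 μ) :
    AEStronglyMeasurable (jf h ι ξ) μ := by
  refine AEStronglyMeasurable.const_smul ?_ _
  refine aestronglyMeasurable_of_tendsto_ae (atTop : Filter (Finset Γ))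
    (f := fun s x => ∑ g ∈ s, jc ρ ω ι ξ x g • ρ g ω) (fun s => ?_) ?_
  · exact Finset.aestronglyMeasurable_fun_sum s fun g _ => (aesm_jc hξ.1 g).smul_const _
  · filter_upwards [ae_summable_jc h hξ] with x hx
    exact (hasSum_syn h hx).1

theorem lintegral_jf_le (h : TRep ρ ω) {ξ : G → K} (hξ : MemLp ξ 2 μ) :
    ∫⁻ x, ‖jf h ι ξ x‖ₑ ^ 2 ∂μ ≤ ∫⁻ x, ‖ξ x‖ₑ ^ 2 ∂μ := by
  have hC := fc_pos h
  have h1 : ∫⁻ x, ‖jf h ι ξ x‖ₑ ^ 2 ∂μ ≤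
      ∫⁻ x, ENNReal.ofReal (fc h)⁻¹ * ∑' g, ‖jc ρ ω ι ξ x g‖ₑ ^ 2 ∂μ := by
    refine lintegral_mono_ae ?_
    filter_upwards [ae_summable_jc h hξ] with x hx
    rw [jf, enorm_smul, mul_pow]
    have e1 : ‖(((fc h)⁻¹ : ℝ) : ℂ)‖ₑ = ENNReal.ofReal (fc h)⁻¹ := by
      rw [← ofReal_norm_eq_enorm, Complex.norm_real, Real.norm_of_nonneg (by positivity)]
    rw [e1]
    refine (mul_le_mul_right (enorm_syn_le h hx) _).trans_eq ?_
    rw [← mul_assoc, sq, mul_assoc (ENNReal.ofReal (fc h)⁻¹), ← ENNReal.ofReal_mul (by positivity),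
      inv_mul_cancel₀ hC.ne', ENNReal.ofReal_one, mul_one]
  refine h1.trans_eq ?_
  rw [lintegral_const_mul' _ _ ENNReal.ofReal_ne_top, lintegral_jc h hξ.1, ← mul_assoc,
    ← ENNReal.ofReal_mul (by positivity), inv_mul_cancel₀ hC.ne', ENNReal.ofReal_one, one_mul]

theorem eLpNorm_jf_le (h : TRep ρ ω) {ξ : G → K} (hξ : MemLp ξ 2 μ) :
    eLpNorm (jf h ι ξ) 2 μ ≤ eLpNorm ξ 2 μ := by
  rw [eLpNorm_eq_lintegral_rpow_enorm_toReal (by norm_num) (by norm_num),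
    eLpNorm_eq_lintegral_rpow_enorm_toReal (by norm_num) (by norm_num)]
  have h1 := lintegral_jf_le (ι := ι) h hξ
  simp only [ENNReal.toReal_ofNat, ENNReal.rpow_ofNat]
  exact ENNReal.rpow_le_rpow h1 (by norm_num)

theorem memLp_jf (h : TRep ρ ω) {ξ : G → K} (hξ : MemLp ξ 2 μ) : MemLp (jf h ι ξ) 2 μ :=
  ⟨aesm_jf h hξ, (eLpNorm_jf_le h hξ).trans_lt hξ.2⟩

theorem ae_all_trans {P : G → Prop} (hP : ∀ᵐ x ∂μ, P x) : ∀ᵐ x ∂μ, ∀ g : Γ, P (ι g * x) := by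
  rw [ae_all_iff]
  intro g
  exact (measurePreserving_mul_left μ (ι g)).quasiMeasurePreserving.ae hP

theorem jf_congr (h : TRep ρ ω) {ξ η : G → K} (hx : ξ =ᵐ[μ] η) : jf h ι ξ =ᵐ[μ] jf h ι η := by
  filter_upwards [ae_all_trans (Γ := Γ) (ι := ι) hx] with x h1
  refine congrArg (fun z : K => (((fc h)⁻¹ : ℝ) : ℂ) • z) (tsum_congr fun g => ?_)
  rw [jc, jc, h1]

theorem jf_add (h : TRep ρ ω) {ξ η : G → K} (hξ : MemLp ξ 2 μ) (hη : MemLp η 2 μ) :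
    jf h ι (ξ + η) =ᵐ[μ] jf h ι ξ + jf h ι η := by
  filter_upwards [ae_summable_jc (ι := ι) h hξ, ae_summable_jc (ι := ι) h hη] with x h1 h2
  rw [Pi.add_apply, jf, jf, jf, ← smul_add, ← ((hasSum_syn h h1).1.summable).tsum_add
    (hasSum_syn h h2).1.summable]
  refine congrArg (fun z : K => (((fc h)⁻¹ : ℝ) : ℂ) • z) (tsum_congr fun g => ?_)
  rw [← add_smul, jc, jc, jc, Pi.add_apply, inner_add_left]

theorem jf_smul (h : TRep ρ ω) (c : ℂ) (ξ : G → K) (x : G) :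
    jf h ι (c • ξ) x = (starRingEnd ℂ) c • jf h ι ξ x := by
  have h1 : ∑' g, jc ρ ω ι (c • ξ) x g • ρ g ω =
      (starRingEnd ℂ) c • ∑' g, jc ρ ω ι ξ x g • ρ g ω := by
    rw [← tsum_const_smul'']
    refine tsum_congr fun g => ?_
    rw [smul_smul, jc, jc, Pi.smul_apply, inner_smul_left]
  rw [jf, jf, h1, smul_comm]

/-- The conjugate linear contraction `b ↦ b*` of `L²(G; K)`. -/
noncomputable def J (h : TRep ρ ω) (ι : Γ →* G) (μ : Measure G) [μ.IsMulLeftInvariant] :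
    Lp K 2 μ →SL[starRingEnd ℂ] Lp K 2 μ :=
  LinearMap.mkContinuous
    { toFun := fun ξ => (memLp_jf (ι := ι) h (Lp.memLp ξ)).toLp _
      map_add' := fun ξ η => by
        refine Lp.ext ?_
        have h1 : jf h ι ⇑(ξ + η) =ᵐ[μ] jf h ι (⇑ξ + ⇑η) := jf_congr h (Lp.coeFn_add ξ η)
        filter_upwards [MemLp.coeFn_toLp (memLp_jf (ι := ι) h (Lp.memLp (ξ + η))), h1,
          jf_add (ι := ι) h (Lp.memLp ξ) (Lp.memLp η),
          Lp.coeFn_add ((memLp_jf (ι := ι) h (Lp.memLp ξ)).toLp _)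
            ((memLp_jf (ι := ι) h (Lp.memLp η)).toLp _),
          MemLp.coeFn_toLp (memLp_jf (ι := ι) h (Lp.memLp ξ)),
          MemLp.coeFn_toLp (memLp_jf (ι := ι) h (Lp.memLp η))] with x e1 e2 e3 e4 e5 e6
        rw [e1, e2, e3, e4, Pi.add_apply, Pi.add_apply, e5, e6]
      map_smul' := fun c ξ => by
        refine Lp.ext ?_
        have h1 : jf h ι ⇑(c • ξ) =ᵐ[μ] jf h ι (c • ⇑ξ) := jf_congr h (Lp.coeFn_smul c ξ)
        filter_upwards [MemLp.coeFn_toLp (memLp_jf (ι := ι) h (Lp.memLp (c • ξ))), h1,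
          Lp.coeFn_smul ((starRingEnd ℂ) c) ((memLp_jf (ι := ι) h (Lp.memLp ξ)).toLp _),
          MemLp.coeFn_toLp (memLp_jf (ι := ι) h (Lp.memLp ξ))] with x e1 e2 e3 e4
        rw [e1, e2, e3, Pi.smul_apply, e4, jf_smul] }
    1 (fun ξ => by
      rw [one_mul]
      change ‖(memLp_jf (ι := ι) h (Lp.memLp ξ)).toLp _‖ ≤ ‖ξ‖
      rw [Lp.norm_toLp, Lp.norm_def]
      exact ENNReal.toReal_mono (Lp.eLpNorm_ne_top ξ) (eLpNorm_jf_le h (Lp.memLp ξ)))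

theorem J_ae (h : TRep ρ ω) (ξ : Lp K 2 μ) : J h ι μ ξ =ᵐ[μ] jf h ι ξ :=
  MemLp.coeFn_toLp (memLp_jf (ι := ι) h (Lp.memLp ξ))

theorem norm_J_le (h : TRep ρ ω) (ξ : Lp K 2 μ) : ‖J h ι μ ξ‖ ≤ ‖ξ‖ := by
  change ‖(memLp_jf (ι := ι) h (Lp.memLp ξ)).toLp _‖ ≤ ‖ξ‖
  rw [Lp.norm_toLp, Lp.norm_def]
  exact ENNReal.toReal_mono (Lp.eLpNorm_ne_top ξ) (eLpNorm_jf_le h (Lp.memLp ξ))

end jmap

section fields

variable {Γ G K : Type} [Group Γ] [Countable Γ] [Group G] [TopologicalSpace G]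
  [IsTopologicalGroup G] [MeasurableSpace G] [BorelSpace G]
  [NormedAddCommGroup K] [InnerProductSpace ℂ K] [CompleteSpace K]
  {ρ : Γ →* (K →L[ℂ] K)} {ω : K} {ι : Γ →* G} {μ : Measure G} [μ.IsMulLeftInvariant]

/-- `b` is an almost everywhere equivariant field bounded by `C`, with vector `ξ`. -/
structure IsFld (ρ : Γ →* (K →L[ℂ] K)) (ω : K) (ι : Γ →* G) (μ : Measure G) (C : ℝ)
    (b : G → K →L[ℂ] K) (ξ : Lp K 2 μ) : Prop where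
  bdd : ∀ x, ‖b x‖ ≤ C
  equiv : ∀ᵐ x ∂μ, ∀ γ, b (ι γ * x) = ρ γ * b x * ρ γ⁻¹
  eq : ξ =ᵐ[μ] fun x => b x ω

/-- The vectors of the equivariant fields bounded by `C`. -/
def CC (ρ : Γ →* (K →L[ℂ] K)) (ω : K) (ι : Γ →* G) (μ : Measure G) (C : ℝ) : Set (Lp K 2 μ) :=
  {ξ | ∃ b, IsFld ρ ω ι μ C b ξ}

theorem IsFld.J {C : ℝ} {b : G → K →L[ℂ] K} {ξ : Lp K 2 μ} (h : TRep ρ ω)
    (hb : IsFld ρ ω ι μ C b ξ) :
    IsFld ρ ω ι μ C (fun x => adjoint (b x)) (J h ι μ ξ) := by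
  have hadj : ∀ S T : K →L[ℂ] K, adjoint (S * T) = adjoint T * adjoint S := fun S T => by
    rw [← star_eq_adjoint, star_mul]; rfl
  refine ⟨fun x => ?_, ?_, ?_⟩
  · rw [LinearIsometryEquiv.norm_map]; exact hb.bdd x
  · filter_upwards [hb.equiv] with x hx γ
    rw [hx, hadj, hadj, h.adj, h.adj, inv_inv, mul_assoc]
  · filter_upwards [J_ae (ι := ι) h ξ, ae_all_trans (Γ := Γ) (ι := ι) hb.eq, hb.equiv] with x h1 h2 h3
    rw [h1]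
    have h4 : ∀ g, jc ρ ω ι ξ x g = ⟪ρ g ω, adjoint (b x) ω⟫_ℂ := by
      intro g
      rw [jc, h2, h3, mul_ap, mul_ap, inv_inv, h.inner_left, inv_inv, adjoint_inner_right]
      congr 1
      rw [← mul_ap (ρ g), ← map_mul, mul_inv_cancel, map_one]; rfl
    rw [jf]
    simp_rw [h4]
    exact rec_eq h _

end fields

end Vale.Agent.P092.QT.H333
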