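import Vale.Agent.P092.QT.H333.TF

/-!
P092 (helper58, after helper333), tight frames: the fields and the conjugation representation.
-/

set_option linter.all false

open scoped InnerProductSpace Topology ENNReal
open Filter ContinuousLinearMap MeasureTheory
open Vale.Agent.P092.H160 (Cmm mul_ap)
open Vale.Agent.P092.QT.H156.Sm

namespace Vale.Agent.P092.QT.H333

section fld

variable {Γ G K : Type} [Group Γ] [Countable Γ] [Group G] [TopologicalSpace G]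
  [IsTopologicalGroup G] [MeasurableSpace G] [BorelSpace G]
  [NormedAddCommGroup K] [InnerProductSpace ℂ K] [CompleteSpace K]
  {ρ : Γ →* (K →L[ℂ] K)} {ω : K} {ι : Γ →* G} {μ : Measure G} [μ.IsMulLeftInvariant]
  {C C' : ℝ} {b b' : G → K →L[ℂ] K} {ξ ξ' : Lp K 2 μ}

theorem IsFld.mono (hb : IsFld ρ ω ι μ C b ξ) (hC : C ≤ C') : IsFld ρ ω ι μ C' b ξ :=
  ⟨fun x => (hb.bdd x).trans hC, hb.equiv, hb.eq⟩

theorem IsFld.add (hb : IsFld ρ ω ι μ C b ξ) (hb' : IsFld ρ ω ι μ C' b' ξ') :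
    IsFld ρ ω ι μ (C + C') (fun x => b x + b' x) (ξ + ξ') := by
  refine ⟨fun x => (norm_add_le _ _).trans (add_le_add (hb.bdd x) (hb'.bdd x)), ?_, ?_⟩
  · filter_upwards [hb.equiv, hb'.equiv] with x h1 h2 γ
    rw [h1, h2, mul_add, add_mul]
  · filter_upwards [Lp.coeFn_add ξ ξ', hb.eq, hb'.eq] with x h1 h2 h3
    rw [h1, Pi.add_apply, h2, h3]; rfl

theorem IsFld.smul (c : ℂ) (hb : IsFld ρ ω ι μ C b ξ) :
    IsFld ρ ω ι μ (‖c‖ * C) (fun x => c • b x) (c • ξ) := by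
  refine ⟨fun x => by rw [norm_smul]; exact mul_le_mul_of_nonneg_left (hb.bdd x) (norm_nonneg _),
    ?_, ?_⟩
  · filter_upwards [hb.equiv] with x h1 γ
    rw [h1, mul_smul_comm, smul_mul_assoc]
  · filter_upwards [Lp.coeFn_smul c ξ, hb.eq] with x h1 h2
    rw [h1, Pi.smul_apply, h2]; rfl

theorem IsFld.zero : IsFld ρ ω ι μ 0 (fun _ => 0) (0 : Lp K 2 μ) := by
  refine ⟨fun x => by rw [norm_zero], Eventually.of_forall fun x γ => by simp, ?_⟩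
  filter_upwards [Lp.coeFn_zero K 2 μ] with x h1
  rw [h1]; simp

/-- pointwise application of an operator -/
noncomputable abbrev pw (μ : Measure G) (A : K →L[ℂ] K) : Lp K 2 μ →L[ℂ] Lp K 2 μ :=
  A.compLpL 2 μ

theorem pw_ae (A : K →L[ℂ] K) (ξ : Lp K 2 μ) : pw μ A ξ =ᵐ[μ] fun x => A (ξ x) :=
  A.coeFn_compLpL ξ

theorem IsFld.pw {A : K →L[ℂ] K} (hA : Cmm ρ A) (hA1 : ‖A‖ ≤ 1) (hb : IsFld ρ ω ι μ C b ξ) :
    IsFld ρ ω ι μ C (fun x => A * b x) (H333.pw μ A ξ) := by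
  refine ⟨fun x => ?_, ?_, ?_⟩
  · refine (norm_mul_le _ _).trans ?_
    refine (mul_le_mul_of_nonneg_right hA1 (norm_nonneg _)).trans ?_
    rw [one_mul]; exact hb.bdd x
  · filter_upwards [hb.equiv] with x h1 γ
    rw [h1, ← mul_assoc, ← mul_assoc, hA γ, ← mul_assoc]
  · filter_upwards [pw_ae A ξ, hb.eq] with x h1 h2
    rw [h1, h2]; rfl

theorem norm_pw {A : K →L[ℂ] K} (hA : ∀ u, ‖A u‖ = ‖u‖) (ξ : Lp K 2 μ) :
    ‖H333.pw μ A ξ‖ = ‖ξ‖ := by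
  have h1 : ∀ᵐ x ∂μ, ‖(H333.pw μ A ξ) x‖ = ‖ξ x‖ := by
    filter_upwards [pw_ae A ξ] with x h1
    rw [h1, hA]
  exact le_antisymm (Lp.norm_le_norm_of_ae_le (h1.mono fun x h => h.le))
    (Lp.norm_le_norm_of_ae_le (h1.mono fun x h => h.ge))

/-- two vectors with the same field are equal -/
theorem IsFld.unique (hb : IsFld ρ ω ι μ C b ξ) (hb' : IsFld ρ ω ι μ C' b ξ') : ξ = ξ' :=
  Lp.ext (hb.eq.trans hb'.eq.symm)

/-- the submodule of the vectors of bounded fields -/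
def bddSub (ρ : Γ →* (K →L[ℂ] K)) (ω : K) (ι : Γ →* G) (μ : Measure G) [μ.IsMulLeftInvariant] :
    Submodule ℂ (Lp K 2 μ) where
  carrier := {ξ | ∃ C b, IsFld ρ ω ι μ C b ξ}
  zero_mem' := ⟨_, _, IsFld.zero⟩
  add_mem' := fun ⟨_, _, h1⟩ ⟨_, _, h2⟩ => ⟨_, _, h1.add h2⟩
  smul_mem' := fun c _ ⟨_, _, h1⟩ => ⟨_, _, h1.smul c⟩

end fld

section rep

variable {Γ Λ G K : Type} [Group Γ] [Group Λ] [Countable Γ] [Group G] [TopologicalSpace G]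
  [IsTopologicalGroup G] [MeasurableSpace G] [BorelSpace G]
  [NormedAddCommGroup K] [InnerProductSpace ℂ K] [CompleteSpace K]
  {ρ : Γ →* (K →L[ℂ] K)} {V : Λ →* (K →L[ℂ] K)} {ω : K} {ι : Γ →* G} {μ : Measure G}
  [μ.IsMulLeftInvariant]
  {C C' : ℝ} {b b' : G → K →L[ℂ] K} {ξ ξ' : Lp K 2 μ}

/-- the closed span of the vectors of the bounded fields -/
noncomputable def WW (ρ : Γ →* (K →L[ℂ] K)) (ω : K) (ι : Γ →* G) (μ : Measure G)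
    [μ.IsMulLeftInvariant] : Submodule ℂ (Lp K 2 μ) := (bddSub ρ ω ι μ).topologicalClosure

theorem IsFld.mem_WW (hb : IsFld ρ ω ι μ C b ξ) : ξ ∈ WW ρ ω ι μ :=
  (bddSub ρ ω ι μ).le_topologicalClosure ⟨_, _, hb⟩

theorem isClosed_WW : IsClosed (WW ρ ω ι μ : Set (Lp K 2 μ)) :=
  (bddSub ρ ω ι μ).isClosed_topologicalClosure

instance completeSpace_WW : CompleteSpace (WW ρ ω ι μ) := isClosed_WW.completeSpace_coe

/-- conjugation by `V v` on the level of vectors -/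
noncomputable def cjL (h : Frm ρ V ω) (ι : Γ →* G) (μ : Measure G) [μ.IsMulLeftInvariant] (v : Λ) :
    Lp K 2 μ →L[ℂ] Lp K 2 μ :=
  (pw μ (V v)).comp ((J h.reg ι μ).comp ((pw μ (V v)).comp (J h.reg ι μ)))

theorem cjL_apply (h : Frm ρ V ω) (v : Λ) (ξ : Lp K 2 μ) :
    cjL h ι μ v ξ = pw μ (V v) (J h.reg ι μ (pw μ (V v) (J h.reg ι μ ξ))) := rfl

theorem norm_cjL_le (h : Frm ρ V ω) (v : Λ) (ξ : Lp K 2 μ) : ‖cjL h ι μ v ξ‖ ≤ ‖ξ‖ := by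
  rw [cjL_apply, norm_pw (h.norm_map v)]
  refine (norm_J_le h.reg _).trans ?_
  rw [norm_pw (h.norm_map v)]
  exact norm_J_le h.reg _

theorem IsFld.cjL (h : Frm ρ V ω) (hb : IsFld ρ ω ι μ C b ξ) (v : Λ) :
    IsFld ρ ω ι μ C (fun x => V v * b x * V v⁻¹) (H333.cjL h ι μ v ξ) := by
  have h1 := ((((hb.J h.reg).pw (h.comm v) (h.norm_le v)).J h.reg).pw (h.comm v) (h.norm_le v))
  have h2 : (fun x => V v * adjoint (V v * adjoint (b x))) = fun x => V v * b x * V v⁻¹ := by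
    funext x
    rw [← star_eq_adjoint, star_mul, star_eq_adjoint, adjoint_adjoint, star_eq_adjoint, h.adj,
      mul_assoc]
  rw [h2] at h1
  exact h1

theorem cjL_mem (h : Frm ρ V ω) (v : Λ) (hξ : ξ ∈ WW ρ ω ι μ) : cjL h ι μ v ξ ∈ WW ρ ω ι μ := by
  have h1 : Set.MapsTo (cjL h ι μ v) (bddSub ρ ω ι μ : Set (Lp K 2 μ)) (WW ρ ω ι μ) := by
    rintro ξ ⟨C, b, hb⟩
    exact (hb.cjL h v).mem_WW
  have h2 := h1.closure (cjL h ι μ v).continuous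
  rw [isClosed_WW.closure_eq] at h2
  exact h2 hξ

theorem cjL_one (h : Frm ρ V ω) (hξ : ξ ∈ WW ρ ω ι μ) : cjL h ι μ 1 ξ = ξ := by
  have h1 : Set.EqOn (cjL h ι μ 1) id (bddSub ρ ω ι μ : Set (Lp K 2 μ)) := by
    rintro ξ ⟨C, b, hb⟩
    have h2 := hb.cjL h 1
    simp only [inv_one, map_one, one_mul, mul_one] at h2
    exact h2.unique hb
  exact (h1.closure (cjL h ι μ 1).continuous continuous_id) hξ

theorem cjL_mul (h : Frm ρ V ω) (v w : Λ) (hξ : ξ ∈ WW ρ ω ι μ) :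
    cjL h ι μ (v * w) ξ = cjL h ι μ v (cjL h ι μ w ξ) := by
  have h1 : Set.EqOn (cjL h ι μ (v * w)) (fun ξ => cjL h ι μ v (cjL h ι μ w ξ))
      (bddSub ρ ω ι μ : Set (Lp K 2 μ)) := by
    rintro ξ ⟨C, b, hb⟩
    have h1 := hb.cjL h (v * w)
    have h2 := (hb.cjL h w).cjL h v
    have h3 : (fun x => V v * (V w * b x * V w⁻¹) * V v⁻¹) =
        fun x => V (v * w) * b x * V (v * w)⁻¹ := by
      funext x
      rw [mul_inv_rev, map_mul, map_mul]; noncomm_ring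
    rw [h3] at h2
    exact h1.unique h2
  exact (h1.closure (cjL h ι μ (v * w)).continuous
    ((cjL h ι μ v).continuous.comp (cjL h ι μ w).continuous)) hξ

/-- the projection onto the span of the fields -/
noncomputable def QQ (ρ : Γ →* (K →L[ℂ] K)) (ω : K) (ι : Γ →* G) (μ : Measure G)
    [μ.IsMulLeftInvariant] : Lp K 2 μ →L[ℂ] Lp K 2 μ := (WW ρ ω ι μ).starProjection

theorem QQ_mem (ξ : Lp K 2 μ) : QQ ρ ω ι μ ξ ∈ WW ρ ω ι μ :=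
  Submodule.starProjection_apply_mem _ _

theorem QQ_of_mem (hξ : ξ ∈ WW ρ ω ι μ) : QQ ρ ω ι μ ξ = ξ :=
  Submodule.starProjection_eq_self_iff.mpr hξ

theorem QQ_orth (ξ : Lp K 2 μ) : ξ - QQ ρ ω ι μ ξ ∈ (WW ρ ω ι μ)ᗮ :=
  Submodule.sub_starProjection_mem_orthogonal _

theorem norm_add_sq_of (η ζ : Lp K 2 μ) (hη : η ∈ WW ρ ω ι μ) (hζ : ζ ∈ (WW ρ ω ι μ)ᗮ) :
    ‖η + ζ‖ ^ 2 = ‖η‖ ^ 2 + ‖ζ‖ ^ 2 := by
  have h1 : ⟪η, ζ⟫_ℂ = 0 := (Submodule.mem_orthogonal _ _).1 hζ η hη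
  have h2 := norm_add_sq_eq_norm_sq_add_norm_sq_of_inner_eq_zero η ζ h1
  rw [sq, sq, sq]
  exact h2

/-- The conjugation on the span of the fields, the identity on the orthogonal complement. -/
noncomputable def cjQ (h : Frm ρ V ω) (ι : Γ →* G) (μ : Measure G) [μ.IsMulLeftInvariant] (v : Λ) :
    Lp K 2 μ →L[ℂ] Lp K 2 μ :=
  cjL h ι μ v * QQ ρ ω ι μ + (1 - QQ ρ ω ι μ)

theorem cjQ_apply (h : Frm ρ V ω) (v : Λ) (ξ : Lp K 2 μ) :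
    cjQ h ι μ v ξ = cjL h ι μ v (QQ ρ ω ι μ ξ) + (ξ - QQ ρ ω ι μ ξ) := rfl

/-- **The conjugation representation.** -/
noncomputable def cj (h : Frm ρ V ω) (ι : Γ →* G) (μ : Measure G) [μ.IsMulLeftInvariant] :
    Λ →* (Lp K 2 μ →L[ℂ] Lp K 2 μ) where
  toFun := cjQ h ι μ
  map_one' := by
    ext1 ξ
    rw [cjQ_apply, cjL_one h (QQ_mem ξ), add_sub_cancel]
    rfl
  map_mul' v w := by
    ext1 ξ
    rw [mul_ap, cjQ_apply, cjQ_apply h w, cjQ_apply h v, cjL_mul h v w (QQ_mem ξ)]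
    have h1 : QQ ρ ω ι μ (cjL h ι μ w (QQ ρ ω ι μ ξ) + (ξ - QQ ρ ω ι μ ξ)) =
        cjL h ι μ w (QQ ρ ω ι μ ξ) := by
      rw [map_add, QQ_of_mem (cjL_mem h w (QQ_mem ξ)), map_sub, QQ_of_mem (QQ_mem ξ), sub_self,
        add_zero]
    rw [h1, add_sub_cancel_left]

theorem cj_apply (h : Frm ρ V ω) (v : Λ) (ξ : Lp K 2 μ) :
    cj h ι μ v ξ = cjL h ι μ v (QQ ρ ω ι μ ξ) + (ξ - QQ ρ ω ι μ ξ) := rfl

theorem norm_cj_le (h : Frm ρ V ω) (v : Λ) (ξ : Lp K 2 μ) : ‖cj h ι μ v ξ‖ ≤ ‖ξ‖ := by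
  refine abs_le_of_sq_le_sq' ?_ (norm_nonneg _) |>.2
  rw [cj_apply, norm_add_sq_of _ _ (cjL_mem h v (QQ_mem ξ)) (QQ_orth ξ)]
  have h1 := norm_add_sq_of _ _ (QQ_mem ξ) (QQ_orth (ρ := ρ) (ω := ω) (ι := ι) ξ)
  rw [add_sub_cancel] at h1
  rw [h1]
  exact add_le_add (pow_le_pow_left₀ (norm_nonneg _) (norm_cjL_le h v _) 2) le_rfl

theorem cj_inv_apply (h : Frm ρ V ω) (v : Λ) (ξ : Lp K 2 μ) :
    cj h ι μ v (cj h ι μ v⁻¹ ξ) = ξ := by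
  rw [← mul_ap, ← map_mul, mul_inv_cancel, map_one]; rfl

theorem norm_cj (h : Frm ρ V ω) (v : Λ) (ξ : Lp K 2 μ) : ‖cj h ι μ v ξ‖ = ‖ξ‖ := by
  refine le_antisymm (norm_cj_le h v ξ) ?_
  have h1 := cj_inv_apply (ι := ι) (μ := μ) h v⁻¹ ξ
  rw [inv_inv] at h1
  conv_lhs => rw [← h1]
  exact norm_cj_le h v⁻¹ _

theorem IsFld.cj (h : Frm ρ V ω) (hb : IsFld ρ ω ι μ C b ξ) (v : Λ) :
    IsFld ρ ω ι μ C (fun x => V v * b x * V v⁻¹) (H333.cj h ι μ v ξ) := by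
  rw [cj_apply, QQ_of_mem hb.mem_WW, sub_self, add_zero]
  exact hb.cjL h v

theorem inner_cj (h : Frm ρ V ω) (v : Λ) (ξ η : Lp K 2 μ) :
    ⟪cj h ι μ v ξ, cj h ι μ v η⟫_ℂ = ⟪ξ, η⟫_ℂ := by
  let L : Lp K 2 μ →ₗᵢ[ℂ] Lp K 2 μ := ⟨(cj h ι μ v : Lp K 2 μ →ₗ[ℂ] Lp K 2 μ), norm_cj h v⟩
  exact L.inner_map_map ξ η

theorem adjoint_cj (h : Frm ρ V ω) (v : Λ) : adjoint (cj h ι μ v) = cj h ι μ v⁻¹ := by
  symm
  rw [eq_adjoint_iff]
  intro ξ η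
  rw [← inner_cj h v, cj_inv_apply]

theorem cj_mem_CC (h : Frm ρ V ω) (v : Λ) (hξ : ξ ∈ CC ρ ω ι μ C) :
    cj h ι μ v ξ ∈ CC ρ ω ι μ C :=
  let ⟨_, hb⟩ := hξ; ⟨_, hb.cj h v⟩

end rep

end Vale.Agent.P092.QT.H333
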