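import Vale.Agent.P092.QT.H333.Col
import Vale.Agent.P092.H553.Ops

/-!
P092 (helper58), tight frames: the test field `b_S(x) = C⁻¹ ∑_g 1_S(ι g⁻¹ x) |ρ g ω⟩⟨ρ g ω|`.
-/

set_option linter.all false

open scoped InnerProductSpace Topology ENNReal Pointwise
open Filter ContinuousLinearMap MeasureTheory
open Vale.Agent.P092.H160 (Cmm mul_ap Bes anOp opOf anOp_apply opOf_dl norm_opOf_le Ell2 dl mk2
  mk2_apply hasSum_dl norm_sq hasSum_inner')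
open Vale.Agent.P092.H553 (mo mo_apply norm_mo_le)

namespace Vale.Agent.P092.QT.H333

section op

variable {Γ K : Type} [Group Γ] [NormedAddCommGroup K] [InnerProductSpace ℂ K] [CompleteSpace K]
  {ρ : Γ →* (K →L[ℂ] K)} {ω : K}

/-- `C⁻¹ ∑_g F g |ρ g ω⟩⟨ρ g ω|` -/
noncomputable def mf (h : TRep ρ ω) (F : Γ → ℝ) : K →L[ℂ] K :=
  (((fc h)⁻¹ : ℝ) : ℂ) • (opOf (bes h) ∘L mo F ∘L anOp (bes h))

variable {F : Γ → ℝ}

theorem mf_inner (h : TRep ρ ω) (hF : ∀ g, |F g| ≤ 1) (v u : K) :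
    HasSum (fun g => ((F g : ℝ) : ℂ) * (⟪v, ρ g ω⟫_ℂ * ⟪ρ g ω, u⟫_ℂ)) (fc h * ⟪v, mf h F u⟫_ℂ) := by
  have h1 := hasSum_inner' (anOp (bes h) v) (mo F (anOp (bes h) u))
  have h2 : (fun g => (mo F (anOp (bes h) u)) g * (starRingEnd ℂ) ((anOp (bes h) v) g)) =
      fun g => ((F g : ℝ) : ℂ) * (⟪v, ρ g ω⟫_ℂ * ⟪ρ g ω, u⟫_ℂ) := by
    funext g
    rw [mo_apply hF, anOp_apply, anOp_apply, inner_conj_symm]
    ring
  have h3 : ⟪anOp (bes h) v, mo F (anOp (bes h) u)⟫_ℂ = fc h * ⟪v, mf h F u⟫_ℂ := by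
    change _ = _ * ⟪v, (((fc h)⁻¹ : ℝ) : ℂ) • opOf (bes h) (mo F (anOp (bes h) u))⟫_ℂ
    rw [inner_smul_right, ← mul_assoc, ← Complex.ofReal_mul, mul_inv_cancel₀ (fc_pos h).ne',
      Complex.ofReal_one, one_mul, opOf, adjoint_inner_right]
  rw [h2, h3] at h1
  exact h1

theorem mf_sum (h : TRep ρ ω) (hF : ∀ g, |F g| ≤ 1) (u : K) :
    HasSum (fun g => ((((fc h)⁻¹ * F g : ℝ) : ℂ) * ⟪ρ g ω, u⟫_ℂ) • ρ g ω) (mf h F u) := by
  have h1 := ((hasSum_dl (mo F (anOp (bes h) u))).mapL (opOf (bes h))).const_smul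
    (((fc h)⁻¹ : ℝ) : ℂ)
  have h2 : (fun g => (((fc h)⁻¹ : ℝ) : ℂ) • opOf (bes h) ((mo F (anOp (bes h) u)) g • dl g)) =
      fun g => ((((fc h)⁻¹ * F g : ℝ) : ℂ) * ⟪ρ g ω, u⟫_ℂ) • ρ g ω := by
    funext g
    rw [map_smul, opOf_dl, mo_apply hF, anOp_apply, smul_smul, Complex.ofReal_mul, mul_assoc]
  rw [h2] at h1
  exact h1

theorem norm_mf_sq (h : TRep ρ ω) (hF : ∀ g, |F g| ≤ 1) (u : K) :
    ‖mf h F u‖ ^ 2 ≤ (fc h)⁻¹ * ∑' g, F g ^ 2 * ‖⟪ρ g ω, u⟫_ℂ‖ ^ 2 := by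
  have hC := fc_pos h
  have h1 : ‖mf h F u‖ ≤ (fc h)⁻¹ * (Real.sqrt (fc h) * ‖mo F (anOp (bes h) u)‖) := by
    change ‖(((fc h)⁻¹ : ℝ) : ℂ) • opOf (bes h) (mo F (anOp (bes h) u))‖ ≤ _
    rw [norm_smul, Complex.norm_real, Real.norm_of_nonneg (by positivity)]
    refine mul_le_mul_of_nonneg_left ?_ (by positivity)
    refine ((opOf (bes h)).le_opNorm _).trans (mul_le_mul_of_nonneg_right ?_ (norm_nonneg _))
    exact (norm_opOf_le (bes h)).trans_eq (abs_of_nonneg (Real.sqrt_nonneg _))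
  have h2 := pow_le_pow_left₀ (norm_nonneg _) h1 2
  have h3 : ‖mo F (anOp (bes h) u)‖ ^ 2 = ∑' g, F g ^ 2 * ‖⟪ρ g ω, u⟫_ℂ‖ ^ 2 := by
    rw [norm_sq]
    refine tsum_congr fun g => ?_
    rw [mo_apply hF, anOp_apply, norm_mul, mul_pow, Complex.norm_real, Real.norm_eq_abs, sq_abs]
  rw [mul_pow, mul_pow, Real.sq_sqrt hC.le, h3] at h2
  refine h2.trans_eq ?_
  field_simp

theorem norm_mf_le (h : TRep ρ ω) (hF : ∀ g, |F g| ≤ 1) : ‖mf h F‖ ≤ 1 := by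
  have hC := fc_pos h
  refine opNorm_le_bound _ zero_le_one fun u => ?_
  rw [one_mul]
  refine abs_le_of_sq_le_sq' ?_ (norm_nonneg _) |>.2
  refine (norm_mf_sq h hF u).trans ?_
  have h1 := hasSum_norm_sq h u
  have hF2 : ∀ g, F g ^ 2 ≤ 1 := fun g => by
    rw [← sq_abs]; exact pow_le_one₀ (abs_nonneg _) (hF g)
  have h2 : ∑' g, F g ^ 2 * ‖⟪ρ g ω, u⟫_ℂ‖ ^ 2 ≤ fc h * ‖u‖ ^ 2 := by
    rw [← h1.tsum_eq]
    refine Summable.tsum_le_tsum (fun g => mul_le_of_le_one_left (by positivity) (hF2 g))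
      (Summable.of_nonneg_of_le (fun g => by positivity)
        (fun g => mul_le_of_le_one_left (by positivity) (hF2 g)) h1.summable) h1.summable
  calc (fc h)⁻¹ * ∑' g, F g ^ 2 * ‖⟪ρ g ω, u⟫_ℂ‖ ^ 2 ≤ (fc h)⁻¹ * (fc h * ‖u‖ ^ 2) :=
        mul_le_mul_of_nonneg_left h2 (by positivity)
    _ = ‖u‖ ^ 2 := by rw [← mul_assoc, inv_mul_cancel₀ hC.ne', one_mul]

end op

section tf

variable {Γ G K : Type} [Group Γ] [Group G]
  [NormedAddCommGroup K] [InnerProductSpace ℂ K] [CompleteSpace K]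
  {ρ : Γ →* (K →L[ℂ] K)} {ω : K} {ι : Γ →* G}

open Classical in
/-- the coefficients of the test field -/
noncomputable def tq (ι : Γ →* G) (S : Set G) (x : G) (g : Γ) : ℝ :=
  if ι g⁻¹ * x ∈ S then 1 else 0

theorem tq_pos {S : Set G} {x : G} {g : Γ} (hx : ι g⁻¹ * x ∈ S) : tq ι S x g = 1 := if_pos hx

theorem tq_neg {S : Set G} {x : G} {g : Γ} (hx : ι g⁻¹ * x ∉ S) : tq ι S x g = 0 := if_neg hx

theorem abs_tq (S : Set G) (x : G) (g : Γ) : |tq ι S x g| ≤ 1 := by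
  by_cases hx : ι g⁻¹ * x ∈ S
  · rw [tq_pos hx, abs_one]
  · rw [tq_neg hx, abs_zero]; norm_num

theorem tq_sq (S : Set G) (x : G) (g : Γ) : tq ι S x g ^ 2 = tq ι S x g := by
  by_cases hx : ι g⁻¹ * x ∈ S
  · rw [tq_pos hx]; norm_num
  · rw [tq_neg hx]; norm_num

theorem tq_nonneg (S : Set G) (x : G) (g : Γ) : 0 ≤ tq ι S x g := by
  by_cases hx : ι g⁻¹ * x ∈ S
  · rw [tq_pos hx]; norm_num
  · rw [tq_neg hx]

theorem tq_trans (S : Set G) (x : G) (γ g : Γ) : tq ι S (ι γ * x) (γ * g) = tq ι S x g := by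
  have e : ι (γ * g)⁻¹ * (ι γ * x) = ι g⁻¹ * x := by
    rw [← mul_assoc, ← map_mul, mul_inv_rev, inv_mul_cancel_right]
  unfold tq
  rw [e]

/-- The test field. -/
noncomputable def tf (h : TRep ρ ω) (ι : Γ →* G) (S : Set G) (x : G) : K →L[ℂ] K :=
  mf h (tq ι S x)

theorem norm_tf_le (h : TRep ρ ω) (S : Set G) (x : G) : ‖tf h ι S x‖ ≤ 1 :=
  norm_mf_le h fun g => abs_tq S x g

theorem tf_equiv (h : TRep ρ ω) (S : Set G) (γ : Γ) (x : G) :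
    tf h ι S (ι γ * x) = ρ γ * tf h ι S x * ρ γ⁻¹ := by
  ext1 u
  refine ext_inner_left ℂ fun v => ?_
  have h1 := mf_inner h (fun g => abs_tq (ι := ι) S (ι γ * x) g) v u
  have h2 := mf_inner h (fun g => abs_tq (ι := ι) S x g) (ρ γ⁻¹ v) (ρ γ⁻¹ u)
  rw [← (Equiv.mulLeft γ).hasSum_iff] at h1
  have h3 : ((fun g => ((tq ι S (ι γ * x) g : ℝ) : ℂ) * (⟪v, ρ g ω⟫_ℂ * ⟪ρ g ω, u⟫_ℂ)) ∘
      ⇑(Equiv.mulLeft γ)) =
      fun g => ((tq ι S x g : ℝ) : ℂ) * (⟪ρ γ⁻¹ v, ρ g ω⟫_ℂ * ⟪ρ g ω, ρ γ⁻¹ u⟫_ℂ) := by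
    funext g
    simp only [Function.comp, Equiv.coe_mulLeft]
    rw [tq_trans, map_mul, mul_ap, h.inner_right, h.inner_left γ]
  rw [h3] at h1
  have h4 := mul_left_cancel₀ (fc_ne h) (h1.unique h2)
  change ⟪v, mf h (tq ι S (ι γ * x)) u⟫_ℂ = ⟪v, ρ γ (mf h (tq ι S x) (ρ γ⁻¹ u))⟫_ℂ
  rw [h4, h.inner_right]

end tf

section meas

variable {Γ G K : Type} [Group Γ] [Countable Γ] [Group G] [TopologicalSpace G]
  [IsTopologicalGroup G] [MeasurableSpace G] [BorelSpace G]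
  [NormedAddCommGroup K] [InnerProductSpace ℂ K] [CompleteSpace K]
  {ρ : Γ →* (K →L[ℂ] K)} {ω : K} {ι : Γ →* G} {μ : Measure G} [μ.IsMulLeftInvariant]

theorem meas_tq {S : Set G} (hS : MeasurableSet S) (g : Γ) :
    Measurable fun x => tq ι S x g := by
  have h1 : MeasurableSet {x : G | ι g⁻¹ * x ∈ S} := (measurable_const_mul (ι g⁻¹)) hS
  exact Measurable.ite h1 measurable_const measurable_const

theorem lintegral_tq {S : Set G} (hS : MeasurableSet S) (g : Γ) (c : ℝ≥0∞) :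
    ∫⁻ x, ENNReal.ofReal (tq ι S x g) * c ∂μ = μ S * c := by
  have h1 : ∀ x, ENNReal.ofReal (tq ι S x g) = S.indicator (fun _ => (1 : ℝ≥0∞)) (ι g⁻¹ * x) := by
    intro x
    by_cases hx : ι g⁻¹ * x ∈ S
    · rw [tq_pos hx, Set.indicator_of_mem hx, ENNReal.ofReal_one]
    · rw [tq_neg hx, Set.indicator_of_notMem hx, ENNReal.ofReal_zero]
  simp_rw [h1]
  rw [lintegral_mul_left_eq_self (μ := μ)
    (fun x => S.indicator (fun _ => (1 : ℝ≥0∞)) x * c) (ι g⁻¹), lintegral_mul_const _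
    (measurable_const.indicator hS), lintegral_indicator hS, lintegral_const, one_mul,
    Measure.restrict_apply_univ]

theorem aesm_tf (h : TRep ρ ω) {S : Set G} (hS : MeasurableSet S) (u : K) :
    AEStronglyMeasurable (fun x => tf h ι S x u) μ := by
  refine aestronglyMeasurable_of_tendsto_ae (atTop : Filter (Finset Γ))
    (f := fun s x => ∑ g ∈ s, ((((fc h)⁻¹ * tq ι S x g : ℝ) : ℂ) * ⟪ρ g ω, u⟫_ℂ) • ρ g ω)
    (fun s => ?_) ?_
  · refine Finset.aestronglyMeasurable_fun_sum s fun g _ => ?_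
    refine AEStronglyMeasurable.smul_const ?_ _
    refine Measurable.aestronglyMeasurable ?_
    exact (Complex.measurable_ofReal.comp ((meas_tq hS g).const_mul _)).mul_const _
  · exact Eventually.of_forall fun x => mf_sum h (fun g => abs_tq S x g) u

theorem lintegral_tf (h : TRep ρ ω) {S : Set G} (hS : MeasurableSet S) (u : K) :
    ∫⁻ x, ‖tf h ι S x u‖ₑ ^ 2 ∂μ ≤ μ S * ‖u‖ₑ ^ 2 := by
  have hC := fc_pos h
  have h0 := hasSum_norm_sq h u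
  have h1 : ∀ x, ‖tf h ι S x u‖ₑ ^ 2 ≤
      ∑' g, ENNReal.ofReal (tq ι S x g) * ENNReal.ofReal ((fc h)⁻¹ * ‖⟪ρ g ω, u⟫_ℂ‖ ^ 2) := by
    intro x
    rw [enorm_sq_of]
    refine (ENNReal.ofReal_le_ofReal (norm_mf_sq h (fun g => abs_tq S x g) u)).trans ?_
    have h2 : Summable fun g => tq ι S x g * ((fc h)⁻¹ * ‖⟪ρ g ω, u⟫_ℂ‖ ^ 2) := by
      refine Summable.of_nonneg_of_le (fun g => mul_nonneg (tq_nonneg S x g) (by positivity))
        (fun g => ?_) (h0.summable.mul_left (fc h)⁻¹)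
      exact mul_le_of_le_one_left (by positivity) ((le_abs_self _).trans (abs_tq S x g))
    rw [← tsum_mul_left]
    have h3 : (fun g => (fc h)⁻¹ * (tq ι S x g ^ 2 * ‖⟪ρ g ω, u⟫_ℂ‖ ^ 2)) =
        fun g => tq ι S x g * ((fc h)⁻¹ * ‖⟪ρ g ω, u⟫_ℂ‖ ^ 2) := by
      funext g
      rw [tq_sq]
      ring
    rw [h3, ENNReal.ofReal_tsum_of_nonneg
      (fun g => mul_nonneg (tq_nonneg S x g) (by positivity)) h2]
    refine ENNReal.tsum_le_tsum fun g => ?_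
    rw [ENNReal.ofReal_mul (tq_nonneg S x g)]
  refine (lintegral_mono h1).trans ?_
  rw [lintegral_tsum fun g => (((meas_tq hS g).ennreal_ofReal).mul_const _).aemeasurable]
  simp_rw [lintegral_tq hS]
  rw [ENNReal.tsum_mul_left, ← ENNReal.ofReal_tsum_of_nonneg (fun g => by positivity)
    (h0.summable.mul_left _), tsum_mul_left, h0.tsum_eq, ← mul_assoc, inv_mul_cancel₀ hC.ne',
    one_mul, enorm_sq_of]

theorem memLp_tf (h : TRep ρ ω) {S : Set G} (hS : MeasurableSet S) (hμ : μ S ≠ ∞) (u : K) :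
    MemLp (fun x => tf h ι S x u) 2 μ := by
  refine ⟨aesm_tf h hS u, ?_⟩
  rw [eLpNorm_lt_top_iff_lintegral_rpow_enorm_lt_top (by norm_num) (by norm_num)]
  simp only [ENNReal.toReal_ofNat, ENNReal.rpow_ofNat]
  refine (lintegral_tf h hS u).trans_lt (ENNReal.mul_lt_top hμ.lt_top ?_)
  rw [enorm_sq_of]
  exact ENNReal.ofReal_lt_top

/-- The vector of the test field. -/
noncomputable def tv (h : TRep ρ ω) (ι : Γ →* G) {S : Set G} (hS : MeasurableSet S)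
    (hμ : μ S ≠ ∞) : Lp K 2 μ := (memLp_tf (ι := ι) h hS hμ ω).toLp _

theorem isFld_tv (h : TRep ρ ω) {S : Set G} (hS : MeasurableSet S) (hμ : μ S ≠ ∞) :
    IsFld ρ ω ι μ 1 (tf h ι S) (tv h ι hS hμ) :=
  ⟨fun x => norm_tf_le h S x, Eventually.of_forall fun x γ => tf_equiv h S γ x,
    MemLp.coeFn_toLp (memLp_tf (ι := ι) h hS hμ ω)⟩

end meas

end Vale.Agent.P092.QT.H333
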